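import Vale.Agent.P354XE.Defs
import Vale.Agent.P354XA.Defs
import Vale.Agent.P354XJ.Iso

/-!
Block E12: exact statements of the pieces.
-/

open scoped ContDiff
open Set Filter Topology

noncomputable section

namespace Vale.Agent.P354XE

open Vale.Agent.P354n (R4 Spc IsIsom mink)
open Vale.Agent.P354I (X Dat rm rp Good NoExt Cyl Ev)
open Vale.Agent.P354R (Met Vac chr Pull)
open Vale.Agent.P354P (Pt sp Glob IsDN Dm coef jX)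
open Vale.Agent.P354J (PDy)
open Vale.Agent.P354XA (low)
open Vale.Agent.P354XJ (one res)

/-! ### One chart -/

/-- w is future timelike at p. -/
def Ft (g : Tw) (Xf : R4 → R4) (p w : R4) : Prop := g p w w < 0 ∧ g p w (Xf p) < 0

/-- A future timelike curve on (0,1) in the set S. -/
def Fc (g : Tw) (Xf : R4 → R4) (S : Set R4) (z : ℝ → R4) : Prop :=
  ∀ t ∈ Ioo (0 : ℝ) 1, z t ∈ S ∧ DifferentiableAt ℝ z t ∧ Ft g Xf (z t) (deriv z t)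

/-- A curve of P354XA.Acc in the set S of a chart. -/
structure Ac (g : Tw) (Xf : R4 → R4) (S : Set R4) (L : ℝ) (z : ℝ → R4) (A I : ℝ → ℝ) : Prop where
  pos : 0 < L
  prim : ContinuousOn I (Icc 0 L) ∧ ∀ s ∈ Ioo 0 L, HasDerivAt I (A s) s ∧ 0 ≤ A s
  mem : ∀ s ∈ Ioo 0 L, z s ∈ S ∧ ContDiffAt ℝ ∞ z s ∧ Ft g Xf (z s) (deriv z s) ∧
    1 / 2 ≤ -g (z s) (deriv z s) (deriv z s) ∧ -g (z s) (deriv z s) (deriv z s) ≤ 2 ∧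
    ∀ v, |low g (z s) (deriv z s) (deriv (deriv z) s) v| ≤
      A s * √(g (z s) v v + 2 * g (z s) v (deriv z s) ^ 2)

/-- PAC: invariance under isometries. -/
def PAC : Prop :=
  ∀ f g' D' g D (Y Xf : R4 → R4) S' S L z A I, Pull f g' D' g D → S' ⊆ D' →
    (∀ p ∈ S', fderiv ℝ f p (Y p) = Xf (f p)) → (∀ s ∈ Ioo 0 L, z s ∈ S' ∧ ContDiffAt ℝ ∞ z s) →
    Ac g Xf S L (f ∘ z) A I → Ac g' Y S' L z A I

/-- f is a time function at p. -/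
def Tm (g : Tw) (Xf : R4 → R4) (f : R4 → ℝ) (p : R4) : Prop :=
  ContDiffAt ℝ 1 f p ∧ 0 < fderiv ℝ f p (Xf p) ∧ ∀ v ≠ 0, fderiv ℝ f p v = 0 → 0 < g p v v

/-- LIM: curves in a compact set with a time function have end points. -/
def LIM : Prop :=
  ∀ g D Xf K f z, Lor g D Xf → IsCompact K → K ⊆ D → (∀ p ∈ K, Tm g Xf f p) → Fc g Xf D z →
    ((∀ᶠ t in 𝓝[<] 1, z t ∈ K) → ∃ x ∈ K, Tendsto z (𝓝[<] 1) (𝓝 x)) ∧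
    ((∀ᶠ t in 𝓝[>] 0, z t ∈ K) → ∃ x ∈ K, Tendsto z (𝓝[>] 0) (𝓝 x))

/-- PCOL: a past collar of the slice T = 0. -/
def PCOL : Prop :=
  ∀ g D Xf, Lor g D Xf → (∀ y ≠ 0, pt 0 y ∈ D ∧ Tm g Xf (fun p => p.1) (pt 0 y)) →
    ∃ O ⊆ D, IsOpen O ∧ (∀ y ≠ 0, pt 0 y ∈ O) ∧
      (∀ p ∈ O, xs p ≠ 0 ∧ ∀ c ∈ Icc (0 : ℝ) 1, (c * p.1, p.2) ∈ O) ∧
      ∀ z, Fc g Xf {p ∈ O | p.1 < 0} z → ∃ x ∈ O, Tendsto z (𝓝[<] 1) (𝓝 x)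

/-- Half the Lie derivative of g along V. -/
def pi (g : Tw) (V : R4 → R4) (p w : R4) : ℝ :=
  fderiv ℝ (fun x => g x w w) p (V p) / 2 + g p (fderiv ℝ V p w) w

/-- Data for the barrier argument on S. -/
structure Lya (g : Tw) (Xf : R4 → R4) (S : Set R4) {n : ℕ} (V : Fin n → R4 → R4) (K : Fin n → ℝ)
    (Λ ϱ : R4 → ℝ) (C : ℝ) : Prop where
  pos : ∀ i, 0 < K i
  dif : ∀ p ∈ S, (∀ i, DifferentiableAt ℝ (V i) p) ∧ DifferentiableAt ℝ Λ p ∧ DifferentiableAt ℝ ϱ p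
  gr : ∀ p ∈ S, 0 ≤ ϱ p ∧ Real.exp (Λ p) ≤ C * (1 + ϱ p)
  est : ∀ p ∈ S, ∀ w, Ft g Xf p w → -2 ≤ g p w w → ∀ B ≥ 1, (∀ j, |g p (V j p) w| ≤ K j * B) →
    fderiv ℝ ϱ p w ≤ C * B ∧ 0 ≤ fderiv ℝ Λ p w ∧ ∀ i, g p (V i p) (V i p) ≤ C * B ^ 2 ∧
      ∀ c : ℝ, c = 1 ∨ c = -1 → c * g p (V i p) w = K i * B →
        c * pi g (V i) p w ≤ K i * B * fderiv ℝ Λ p w

/-- LYA: the barrier argument. -/
def LYA : Prop :=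
  ∀ g D Xf S (n : ℕ) (V : Fin n → R4 → R4) K Λ ϱ C L z A I, IsOpen D → Met g D → S ⊆ D →
    Lya g Xf S V K Λ ϱ C → Ac g Xf S L z A I → ∃ c, ∀ s ∈ Ioo (L / 2) L, ϱ (z s) ≤ c

/-- The spacelike hypersurface J = {ρ = 0} in D. -/
structure Cut (D : Set R4) (g : Tw) (Xf : R4 → R4) (ρ : R4 → ℝ) (J : X → R4) : Prop where
  lor : Lor g D Xf
  cont : ContinuousOn ρ D
  sm : ContDiffOn ℝ ∞ J {0}ᶜ
  emb : IsEmbedding fun y : ({0}ᶜ : Set X) => J y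
  mem : ∀ y ≠ 0, J y ∈ D ∧ Tm g Xf ρ (J y)
  zero : ∀ p ∈ D, ρ p = 0 ↔ ∃ y ≠ 0, p = J y

/-- The part between the initial slice T = 0 and the hypersurface J. -/
structure Low (d : Dat) (D : Set R4) (g : Tw) (Xf : R4 → R4) (ρ : R4 → ℝ) (J : X → R4) : Prop where
  cut : Cut D g Xf ρ J
  ind : Ind g Xf (pt 0) d
  ne : ∀ p ∈ D, xs p ≠ 0 ∧ (p.1 ≤ 0 → ρ p < 0)
  mem : ∀ y ≠ 0, pt 0 y ∈ D ∧ Tm g Xf (fun p => p.1) (pt 0 y)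
  conn : IsPreconnected {p ∈ D | ρ p < 0}
  past : ∀ z, Fc g Xf {p ∈ D | ρ p < 0 ∧ 0 ≤ p.1} z → ∃ x ∈ D, Tendsto z (𝓝[>] 0) (𝓝 x)
  fut : ∀ z, Fc g Xf {p ∈ D | p.1 < 0} z → ∃ x ∈ D, Tendsto z (𝓝[<] 1) (𝓝 x)
  lya : ∀ L z A I, Ac g Xf {p ∈ D | ρ p < 0 ∧ 0 ≤ p.1} L z A I →
    ∃ K ⊆ D, IsCompact K ∧ ∃ᶠ s in 𝓝[<] L, z s ∈ K

/-! ### Geometric uniqueness and gluing -/

/-- RIG: isometries with the same 1-jet at p agree along segments from p. -/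
def RIG : Prop :=
  ∀ f f' g' W g D p q, Pull f g' W g D → Pull f' g' W g D → segment ℝ p q ⊆ W → f p = f' p →
    fderiv ℝ f p = fderiv ℝ f' p → f q = f' q

/-- COL: the isometry of collars. -/
def COL : Prop :=
  ∀ D g Xf ρ J (h : Cut D g Xf ρ J) d' δ V, PDy d' → Ind g Xf J d' → Glob d' δ V →
    ∃ (O : Set Pt) (hO : IsOpen O) (ψ : O → D), IsOpenEmbedding ψ ∧
      IsIsom (M := res (sp δ (coef V)) O hO) (N := one D h.lor.isOpen g Xf) ψ ∧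
      (∀ y ≠ 0, ∃ k : jX δ y ∈ O, (ψ ⟨jX δ y, k⟩).1 = J y) ∧
      ∀ p : O, (0 < ρ (ψ p) ↔ Real.log δ < p.1.1) ∧ (ρ (ψ p) < 0 ↔ p.1.1 < Real.log δ)

/-- The development of d has a future part without extension. -/
def GGp (d : Dat) : Prop :=
  ∃ δ V t δ' C', Glob d δ V ∧ IsDN δ' C' ∧ δ' ≤ t ∧
    (∀ σ i, ∀ y ∈ Dm δ', coef V σ i (y + (t, t, 0)) = C' σ i y) ∧ NoExt (sp δ' C')

/-- GGP. -/
def GGP : Prop :=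
  ∀ t d d' δ U, Ev t d d' → Glob d' δ U → δ ≤ t → NoExt (sp δ (coef U)) → GGp d

/-- GLU: the abstract transfer. -/
def GLU : Prop :=
  ∀ d D g Xf ρ J d', Low d D g Xf ρ J → PDy d' → Ind g Xf J d' → GGp d' → Good d

/-! ### Kerr -/

/-- The inverse of kap. -/
def ik (M a : ℝ) (p : R4) : R4 :=
  let t := Real.log ((p.1 + kx M a p) / mf M a (kr M a p)) / ka M a
  let c := a / rp M a * Real.log (kr M a p - rm M a) - a / (2 * M * rp M a) * t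
  (t, (kr M a p / rd p) • (Real.cos c * p.2.1 + Real.sin c * p.2.2.1,
    -Real.sin c * p.2.1 + Real.cos c * p.2.2.1, p.2.2.2))

/-- KAP: the charts. -/
def KAP : Prop :=
  ∀ M a : ℝ, a ≠ 0 → |a| < M →
    (∀ p, rm M a < rd p → ContDiffAt ℝ ∞ (kap M a) p ∧ ik M a (kap M a p) = p ∧
      xs (kap M a p) ≠ 0 ∧ kr M a (kap M a p) = rd p ∧
      (kap M a p).1 + kx M a (kap M a p) = mf M a (rd p) * Real.exp (ka M a * p.1)) ∧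
    (∀ p, xs p ≠ 0 → rm M a < kr M a p → 0 < p.1 + kx M a p → ContDiffAt ℝ ∞ (ik M a) p ∧
      kap M a (ik M a p) = p ∧ rd (ik M a p) = kr M a p) ∧
    (∀ p, xs p ≠ 0 → ContDiffAt ℝ ∞ (mir M a) p ∧ mir M a (mir M a p) = p ∧
      xs (mir M a p) ≠ 0 ∧ kx M a (mir M a p) = -kx M a p ∧ ContDiffAt ℝ ∞ (kx M a) p) ∧
    (∀ c, IsCompact {p | xs p ≠ 0 ∧ |p.1| ≤ c ∧ |kx M a p| ≤ c}) ∧
    ∀ r0 ∈ Ioo (rm M a) (rp M a), ContDiffOn ℝ ∞ (cyl M a r0) {0}ᶜ ∧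
      IsEmbedding (fun y : ({0}ᶜ : Set X) => cyl M a r0 y) ∧
      ∀ p, (xs p ≠ 0 ∧ 0 < p.1 ∧ kr M a p = r0) ↔ ∃ y ≠ 0, p = cyl M a r0 y

/-- The part r ≥ r0 of an end. -/
def Er (M a r1 r0 θ : ℝ) : Set R4 := {p ∈ En M a r1 θ | r0 ≤ rd p}

/-- What is used of an end. -/
structure EndOK (M a r1 r0 θ : ℝ) (g : Tw) (Y : R4 → R4) : Prop where
  time : ∀ p ∈ En M a r1 θ, Real.exp (ka M a * p.1) ≤ 2 * θ → Tm g Y (fun x => x.1) p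
  rad : ∀ p ∈ En M a r1 θ, rd p = r0 → Tm g Y (fun x => -rd x) p
  lid : ∃ τ, (∀ p ∈ Er M a r1 r0 θ, Tm g Y τ p) ∧ ∀ c, IsCompact {p ∈ Er M a r1 r0 θ | τ p ≤ c}
  lya : ∀ L z A I, Ac g Y (Er M a r1 r0 θ) L z A I →
    ∃ K ⊆ Er M a r1 r0 θ, IsCompact K ∧ ∃ᶠ s in 𝓝[<] L, z s ∈ K

/-- END: the estimates give the causal structure of an end. -/
def END : Prop :=
  ∀ M a s δ r1 r0 θ : ℝ, a ≠ 0 → |a| < M → 1 < s → 0 < δ → rm M a < r1 → r1 < r0 → r0 < rp M a →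
    0 < θ → ∃ R0, ∀ R ≥ R0, ∃ ε > 0, ∀ g D Y q q' β, IsOpen D → Met g D → En M a r1 θ ⊆ D →
      (∀ p ∈ En M a r1 θ, g p (Y p) (Y p) < 0 ∧ ∃ L : R4 → R4,
        IsLinearMap ℝ L ∧ L.Injective ∧ ∀ v w, g p v w = mink (L v) (L w)) →
      IsEnd M a r1 θ R s δ ε 2 g Y q q' β → EndOK M a r1 r0 θ g Y

/-- A spacelike slice J = {ρ = 0} in the part r0 ≤ r ≤ r3 < rp of the black hole. -/
structure Sl (M a r1 r0 r3 : ℝ) (g : Tw) (Xf : R4 → R4) (ρ : R4 → ℝ) (J : X → R4) : Prop where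
  lt : r1 < r0 ∧ r3 < rp M a
  cont : ContinuousOn ρ {p | xs p ≠ 0 ∧ r1 < kr M a p}
  sm : ContDiffOn ℝ ∞ J {0}ᶜ
  emb : IsEmbedding fun y : ({0}ᶜ : Set X) => J y
  mem : ∀ y ≠ 0, J y ∈ D0 M a r1 ∧ Tm g Xf ρ (J y)
  zero : ∀ p ∈ D0 M a r1, ρ p = 0 ↔ ∃ y ≠ 0, p = J y
  neg : ∀ p, xs p ≠ 0 → r3 < kr M a p → ρ p < 0
  pos : ∀ p ∈ D0 M a r1, kr M a p < r0 → 0 < ρ p
  conn : IsPreconnected {p ∈ D0 M a r1 | ρ p < 0}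

/-- LOW: the causal structure of the part below the slice. -/
def LOW : Prop :=
  ∀ M a r1 r0 r3 θ d D g Xf ρ J, a ≠ 0 → |a| < M → rm M a < r1 → 0 < θ → PDy d →
    Lor g D Xf → D0 M a r1 ⊆ D → Ind g Xf (pt 0) d →
    (∀ p ∈ Bx M a r1 θ, 0 < (Xf p).1 ∧ ∀ v ≠ 0, v.1 = 0 → 0 < g p v v) →
    (∀ σ, ∃ Y, (∀ p ∈ En M a r1 θ, fderiv ℝ (ch M a σ) p (Y p) = Xf (ch M a σ p)) ∧
      EndOK M a r1 r0 θ (pb (ch M a σ) g) Y) →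
    Sl M a r1 r0 r3 g Xf ρ J → ∃ D' ⊆ D, Low d D' g Xf ρ J

/-- GT: the transfer of Good from the interior data (E12), for a general slice. -/
def GT : Prop :=
  ∀ M a s δ r1 r0 θ : ℝ, a ≠ 0 → |a| < M → 1 < s → 0 < δ → rm M a < r1 → r1 < r0 → r0 < rp M a →
    0 < θ → ∃ R0, ∀ R ≥ R0, ∃ ε > 0, ∀ N ≥ 2, ∀ d D g Xf, PDy d →
      IsExt M a r1 θ R s δ ε N d D g Xf → ∀ r3 ρ J d', Sl M a r1 r0 r3 g Xf ρ J → PDy d' →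
        Ind g Xf J d' → GGp d' → Good d

/-- CYL: the slice r = r0, in any coordinates. -/
def CYL : Prop :=
  ∀ M a s δ r1 r0 θ : ℝ, a ≠ 0 → |a| < M → 1 < s → 0 < δ → rm M a < r1 → r1 < r0 → r0 < rp M a →
    0 < θ → θ * mf M a r0 ≤ √(rp M a - r0) → ∃ R0, ∀ R ≥ R0, ∃ ε > 0, ∀ N ≥ 2, ∀ d D g Xf,
      IsExt M a r1 θ R s δ ε N d D g Xf → ∀ B ψ ψ', Cyl B ψ ψ' →
        Sl M a r1 r0 r0 g Xf (fun p => r0 - kr M a p) (cyl M a r0 ∘ ψ)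

end Vale.Agent.P354XE
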