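import Vale.Agent.P354XE.Iface
import Vale.Agent.P354XJ.Tf
import Vale.Agent.P354P.Cau

/-!
LOW: the causal structure of the part below a slice.
-/

open scoped ContDiff
open Set Filter Topology

noncomputable section

namespace Vale.Agent.P354XE

open Vale.Agent.P354n (R4)
open Vale.Agent.P354I (X Dat rm rp)
open Vale.Agent.P354R (Met Pull)

variable {M a r1 r0 θ L : ℝ} {g : Tw} {D S : Set R4} {Xf Y : R4 → R4} {p P w : R4} {σ : Bool}
  {f : R4 → ℝ} {z : ℝ → R4} {A I : ℝ → ℝ}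

lemma xs_pt (t : ℝ) (y : X) : xs (pt t y) = y := by
  ext i; fin_cases i <;> rfl

lemma pt_xs (p : R4) : pt p.1 (xs p) = p := rfl

lemma xs_cont : Continuous xs := by
  unfold xs
  exact (PiLp.continuous_toLp 2 _).comp (by fun_prop)

lemma rd_cont : Continuous rd := xs_cont.norm

lemma Lor.mono (h : Lor g D Xf) (hS : IsOpen S) (k : S ⊆ D) : Lor g S Xf :=
  ⟨hS, ⟨fun y hy => h.met.lin y (k hy), fun y hy => h.met.symm y (k hy),
    fun y hy => h.met.nondeg y (k hy), fun a b => (h.met.smooth a b).mono k⟩,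
    h.vac.imp fun _ j y hy => j y (k hy), fun y hy => h.sig y (k hy), fun y hy => h.tl y (k hy),
    h.cont.mono k⟩

lemma Tm.pos (h : Tm g Xf f p) (hm : Met g D) (hp : p ∈ D) (ht : g p (Xf p) (Xf p) < 0)
    (hw : Ft g Xf p w) : 0 < fderiv ℝ f p w := by
  by_contra! k
  have l := hm.lin p hp
  have sy := hm.symm p hp
  obtain ⟨-, h1, h2⟩ := h
  generalize fderiv ℝ f p = φ at h1 h2 k
  have e : ∀ u, g p u (φ (Xf p) • w - φ w • Xf p) = φ (Xf p) * g p u w - φ w * g p u (Xf p) :=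
    fun u => by rw [(l u).map_sub, (l u).map_smul, (l u).map_smul]; rfl
  have e1 := e (φ (Xf p) • w - φ w • Xf p)
  rw [sy _ w, sy _ (Xf p), e w, e (Xf p), sy (Xf p) w] at e1
  have n : g p (φ (Xf p) • w - φ w • Xf p) (φ (Xf p) • w - φ w • Xf p) < 0 := by
    rw [e1]
    nlinarith [mul_pos (mul_pos h1 h1) (neg_pos.2 hw.1), mul_nonneg h1.le
      (mul_nonneg_of_nonpos_of_nonpos k hw.2.le), mul_nonneg (mul_self_nonneg (φ w)) (neg_pos.2 ht).le]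
  refine n.not_gt (h2 _ (fun j => ?_) (by simp [mul_comm]))
  rw [j, (l 0).map_zero] at n
  exact n.false

lemma Tm.der (h : Tm g Xf f (z L)) (hz : DifferentiableAt ℝ z L) :
    HasDerivAt (fun s => f (z s)) (fderiv ℝ f (z L) (deriv z L)) L :=
  (h.1.differentiableAt one_ne_zero).hasFDerivAt.comp_hasDerivAt L hz.hasDerivAt

lemma fut_set {F : ℝ → ℝ} {b c s t : ℝ} (hc : ContinuousOn F (Ioo 0 b))
    (h : ∀ s ∈ Ioo 0 b, F s = c → ∃ F' > 0, HasDerivAt F F' s) (hs : s ∈ Ioo 0 b)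
    (ht : t ∈ Ioo 0 b) (hst : s ≤ t) (h0 : c ≤ F s) : c ≤ F t := by
  by_contra k
  have sub : Icc s t ⊆ Ioo 0 b := Icc_subset_Ioo hs.1 ht.2
  obtain ⟨τ, h1, h2, h3⟩ := P354XJ.last_time (P := Ici c) isClosed_Ici (hc.mono sub) hst h0 k
  rw [frontier_Ici] at h2
  obtain ⟨F', h4, h5⟩ := h τ (sub (Ico_subset_Icc_self h1)) h2
  have h6 := (P354XJ.sign_of_deriv (I := univ) (h5.sub_const c).hasDerivWithinAt h4
    (sub_eq_zero.2 h2)).1
  rw [univ_inter] at h6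
  obtain ⟨u, u1, u2⟩ := (h6.and (Ioc_mem_nhdsGT h1.2)).exists
  exact h3 u u2 (sub_pos.1 u1).le

lemma Ac.congr {z' : ℝ → R4} (h : Ac g Xf S L z A I) (e : ∀ s ∈ Ioo 0 L, z' s = z s) :
    Ac g Xf S L z' A I := by
  refine ⟨h.pos, h.prim, fun s hs => ?_⟩
  have e1 : z' =ᶠ[𝓝 s] z := mem_of_superset (Ioo_mem_nhds hs.1 hs.2) e
  rw [e1.deriv.deriv_eq, e1.deriv_eq, e s hs]
  exact (h.mem s hs).imp id fun k => ⟨k.1.congr_of_eventuallyEq e1, k.2⟩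

lemma Ac.shift {s0 : ℝ} (h : Ac g Xf S L z A I) (hs : s0 ∈ Ioo 0 L) :
    Ac g Xf S (L - s0) (fun s => z (s + s0)) (fun s => A (s + s0)) (fun s => I (s + s0)) := by
  have m : ∀ s ∈ Ioo 0 (L - s0), s + s0 ∈ Ioo 0 L := fun s k =>
    ⟨by linarith [k.1, hs.1], by linarith [k.2]⟩
  refine ⟨sub_pos.2 hs.2, ⟨h.prim.1.comp (by fun_prop) fun s k =>
    ⟨by linarith [k.1, hs.1], by linarith [k.2]⟩, fun s k =>
    ⟨(h.prim.2 _ (m s k)).1.comp_add_const s s0, (h.prim.2 _ (m s k)).2⟩⟩, fun s k => ?_⟩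
  have e : (deriv fun s => z (s + s0)) = fun s => deriv z (s + s0) :=
    funext fun s => deriv_comp_add_const z s0 s
  rw [e, deriv_comp_add_const]
  exact (h.mem _ (m s k)).imp id fun j =>
    ⟨ContDiffAt.comp s (g := z) j.1 (contDiffAt_id.add contDiffAt_const), j.2⟩

/-! ### The charts -/

lemma rm_lt (h : |a| < M) : rm M a < rp M a := by
  have : 0 < √(M ^ 2 - a ^ 2) := Real.sqrt_pos.2 (sub_pos.2 (sq_lt_sq' (by linarith [abs_lt.1 h])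
    (abs_lt.1 h).2))
  unfold rm rp; linarith

lemma rm_nonneg (h : |a| < M) : 0 ≤ rm M a :=
  sub_nonneg.2 (Real.sqrt_le_iff.2 ⟨((abs_nonneg a).trans_lt h).le, by nlinarith⟩)

lemma ka_pos (h : |a| < M) : 0 < ka M a := by
  have h1 := rm_lt h
  have h2 := rm_nonneg h
  have h3 := (abs_nonneg a).trans_lt h
  refine div_pos ?_ (by have := h2.trans_lt h1; positivity)
  unfold rm rp at h1; linarith

lemma mf_pos {r : ℝ} (h : rm M a < r) : 0 < mf M a r := Real.rpow_pos_of_pos (sub_pos.2 h) _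

lemma mf_cont (h : |a| < M) : Continuous (mf M a) :=
  (Real.continuous_rpow_const (div_nonneg (rm_nonneg h)
    (by linarith [rm_lt h, rm_nonneg h]))).comp (continuous_id.sub continuous_const)

/-- The inverse charts and the null coordinates. -/
def ci (M a : ℝ) (σ : Bool) : R4 → R4 := bif σ then ik M a else ik M a ∘ mir M a
def nv (M a : ℝ) (σ : Bool) (P : R4) : ℝ := P.1 + (bif σ then 1 else -1) * kx M a P

section
variable (hK : KAP) (ha : a ≠ 0) (hM : |a| < M)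
include hK ha hM

lemma kx_cont (h : xs P ≠ 0) : ContinuousAt (kx M a) P :=
  ((hK M a ha hM).2.2.1 P h).2.2.2.2.continuousAt

lemma kr_cont (h : xs P ≠ 0) : ContinuousAt (kr M a) P :=
  (continuousAt_const.add ((kx_cont hK ha hM h).pow 2)).sub (continuousAt_fst.pow 2)

lemma ch_spec (σ : Bool) (h : rm M a < rd p) : ContDiffAt ℝ ∞ (ch M a σ) p ∧
    ci M a σ (ch M a σ p) = p ∧ xs (ch M a σ p) ≠ 0 ∧ kr M a (ch M a σ p) = rd p ∧
    (ch M a σ p).1 = (kap M a p).1 ∧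
    nv M a σ (ch M a σ p) = mf M a (rd p) * Real.exp (ka M a * p.1) := by
  obtain ⟨k1, -, k3, -⟩ := hK M a ha hM
  obtain ⟨a1, a2, a3, a4, a5⟩ := k1 p h
  cases σ
  · obtain ⟨b1, b2, b3, b4, -⟩ := k3 _ a3
    refine ⟨b1.comp p a1, (congrArg (ik M a) b2).trans a2, b3, ?_, rfl, ?_⟩
    · rw [← a4]
      show kr M a (mir M a _) = _
      rw [kr, b4, neg_sq]; rfl
    · rw [← a5]
      show _ + -1 * kx M a (mir M a _) = _
      rw [b4, neg_one_mul, neg_neg]; rfl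
  · exact ⟨a1, a2, a3, a4, rfl, by rw [← a5]; exact congrArg _ (one_mul _)⟩

lemma ci_spec (h : xs P ≠ 0) (h1 : rm M a < kr M a P) (h2 : 0 < nv M a σ P) :
    ContDiffAt ℝ ∞ (ci M a σ) P ∧ ch M a σ (ci M a σ P) = P ∧ rd (ci M a σ P) = kr M a P := by
  obtain ⟨-, k2, k3, -⟩ := hK M a ha hM
  cases σ
  · obtain ⟨b1, b2, b3, b4, -⟩ := k3 _ h
    have e : kr M a (mir M a P) = kr M a P := by rw [kr, b4, neg_sq]; rfl
    obtain ⟨a1, a2, a3⟩ := k2 _ b3 (e ▸ h1) (by rw [b4, ← neg_one_mul]; exact h2)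
    exact ⟨a1.comp P b1, (congrArg (mir M a) a2).trans b2, a3.trans e⟩
  · exact k2 P h h1 (by rw [← one_mul (kx M a P)]; exact h2)

lemma ci_ch (σ : Bool) (h : rm M a < rd p) : ContDiffAt ℝ ∞ (ci M a σ) (ch M a σ p) ∧
    (∀ v, fderiv ℝ (ci M a σ) (ch M a σ p) (fderiv ℝ (ch M a σ) p v) = v) ∧
    ∀ v, fderiv ℝ (ch M a σ) p (fderiv ℝ (ci M a σ) (ch M a σ p) v) = v := by
  obtain ⟨a1, -, a3, a4, -, a6⟩ := ch_spec hK ha hM σ h
  have b1 := (ci_spec hK ha hM a3 (a4 ▸ h) (a6 ▸ mul_pos (mf_pos h) (Real.exp_pos _))).1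
  have e : ∀ v, fderiv ℝ (ci M a σ) (ch M a σ p) (fderiv ℝ (ch M a σ) p v) = v := fun v => by
    have k := (((b1.differentiableAt (by simp)).hasFDerivAt.comp p
      (a1.differentiableAt (by simp)).hasFDerivAt).congr_of_eventuallyEq (f₁ := id)
      ((continuousAt_const.eventually_lt rd_cont.continuousAt h).mono fun q hq =>
        (ch_spec hK ha hM σ hq).2.1.symm)).unique (hasFDerivAt_id p)
    exact DFunLike.congr_fun k v
  refine ⟨b1, e, fun v => ?_⟩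
  obtain ⟨u, rfl⟩ := LinearMap.surjective_of_injective
    (f := (fderiv ℝ (ch M a σ) p : R4 →ₗ[ℝ] R4)) (Function.LeftInverse.injective e) v
  exact congrArg _ (e u)

lemma ch_pull (σ : Bool) (hD : IsOpen D) (hm : Met g D) :
    Pull (ch M a σ) (pb (ch M a σ) g) {p | rm M a < rd p ∧ ch M a σ p ∈ D} g D := by
  refine ⟨isOpen_iff_mem_nhds.2 fun p hp => ?_, hD, hm,
    fun p hp => (ch_spec hK ha hM σ hp.1).1.contDiffWithinAt, fun p hp => hp.2,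
    fun p hp => Function.LeftInverse.injective (ci_ch hK ha hM σ hp.1).2.1, fun _ _ _ _ => rfl⟩
  exact (continuousAt_const.eventually_lt rd_cont.continuousAt hp.1).and
    ((ch_spec hK ha hM σ hp.1).1.continuousAt.eventually (hD.mem_nhds hp.2))

lemma tm_ch (h : rm M a < rd p) (hY : fderiv ℝ (ch M a σ) p (Y p) = Xf (ch M a σ p))
    (ht : Tm (pb (ch M a σ) g) Y f p) : Tm g Xf (f ∘ ci M a σ) (ch M a σ p) := by
  obtain ⟨b1, b2, b3⟩ := ci_ch hK ha hM σ h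
  have a2 := (ch_spec hK ha hM σ h).2.1
  have c1 : ContDiffAt ℝ 1 f (ci M a σ (ch M a σ p)) := a2.symm ▸ ht.1
  have e : ∀ v, fderiv ℝ (f ∘ ci M a σ) (ch M a σ p) v =
      fderiv ℝ f p (fderiv ℝ (ci M a σ) (ch M a σ p) v) := fun v => by
    rw [fderiv_comp _ (c1.differentiableAt one_ne_zero) (b1.differentiableAt (by simp)), a2]; rfl
  refine ⟨c1.comp _ (b1.of_le (by simp)), by rw [e, ← hY, b2]; exact ht.2.1, fun v v0 k => ?_⟩
  have := ht.2.2 _ (fun j => v0 (by rw [← b3 v, j, map_zero])) (e v ▸ k)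
  rwa [pb, b3] at this

lemma mem_D0 (h1 : rm M a < r1) (h : p ∈ En M a r1 θ) : ch M a σ p ∈ D0 M a r1 := by
  obtain ⟨-, -, a3, a4, a5, -⟩ := ch_spec hK ha hM σ (h1.trans h.1)
  exact ⟨a3, a5 ▸ h.2.2, a4 ▸ h.1⟩

lemma mem_En (h1 : rm M a < r1) (h0 : 0 < θ) (h : P ∈ D0 M a r1)
    (k : θ * mf M a (kr M a P) ≤ nv M a σ P) : ci M a σ P ∈ En M a r1 θ ∧
      ch M a σ (ci M a σ P) = P ∧ rd (ci M a σ P) = kr M a P ∧
      nv M a σ P = mf M a (kr M a P) * Real.exp (ka M a * (ci M a σ P).1) := by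
  have m := mf_pos (h1.trans h.2.2)
  obtain ⟨-, b2, b3⟩ := ci_spec hK ha hM h.1 (h1.trans h.2.2) ((mul_pos h0 m).trans_le k)
  obtain ⟨-, -, -, -, a5, a6⟩ := ch_spec hK ha hM σ (b3 ▸ h1.trans h.2.2 : rm M a < rd (ci M a σ P))
  rw [b2, b3] at a6
  rw [b2] at a5
  refine ⟨⟨b3 ▸ h.2.2, le_of_mul_le_mul_left ?_ m, a5 ▸ h.2.1⟩, b2, b3, a6⟩
  rw [← a6, mul_comm]; exact k

lemma box_cpt (h1 : rm M a < r0) (c : ℝ) : IsCompact {P | xs P ≠ 0 ∧ 0 ≤ P.1 ∧ r0 ≤ kr M a P ∧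
    P.1 + |kx M a P| ≤ c * mf M a (kr M a P)} := by
  have r := rm_lt hM
  have r' := rm_nonneg hM
  generalize hq : rm M a / (2 * rp M a) = q
  have q0 : 0 ≤ q := hq ▸ div_nonneg r' (by linarith)
  have q1 : 0 < 1 - 2 * q := by
    rw [← hq, sub_pos, ← mul_div_assoc, div_lt_one (by linarith)]; linarith
  obtain ⟨u0, hu⟩ := eventually_atTop.1 ((((tendsto_rpow_neg_atTop q1).const_mul
    (|c| * (rp M a - rm M a + 1) ^ q)).eventually (gt_mem_nhds (by simp : _ < (1 : ℝ)))).and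
      (eventually_ge_atTop 1))
  have key : ∀ P, 0 ≤ P.1 → r0 ≤ kr M a P → ∀ u, kx M a P ^ 2 ≤ u →
      c * mf M a (kr M a P) ≤ |c| * (rp M a - rm M a + u) ^ q := fun P k1 k2 u k3 => by
    refine (mul_le_mul_of_nonneg_right (le_abs_self c) (mf_pos (h1.trans_le k2)).le).trans
      (mul_le_mul_of_nonneg_left ?_ (abs_nonneg c))
    rw [mf, hq]
    exact Real.rpow_le_rpow (by linarith) (by rw [kr]; nlinarith) q0
  have hK' := (hK M a ha hM).2.2.2.1 (u0 + |c| * (rp M a - rm M a + u0 ^ 2) ^ q)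
  have c1 : ContinuousOn (fun P => (P.1, kr M a P - r0, c * mf M a (kr M a P) - (P.1 + |kx M a P|)))
      {p | xs p ≠ 0 ∧ |p.1| ≤ u0 + |c| * (rp M a - rm M a + u0 ^ 2) ^ q ∧
        |kx M a p| ≤ u0 + |c| * (rp M a - rm M a + u0 ^ 2) ^ q} := fun P hP => by
    have k1 := kr_cont hK ha hM hP.1
    exact (continuousAt_fst.prodMk ((k1.sub continuousAt_const).prodMk
      ((((mf_cont hM).continuousAt.comp k1).const_mul c).sub
        (continuousAt_fst.add (kx_cont hK ha hM hP.1).abs)))).continuousWithinAt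
  have c2 := hK'.of_isClosed_subset (c1.preimage_isClosed_of_isClosed hK'.isClosed
    (isClosed_Ici (a := ((0, 0, 0) : ℝ × ℝ × ℝ)))) inter_subset_left
  refine (Subset.antisymm (fun P hP => ?_) fun P hP => ?_ :
    _ = {P | xs P ≠ 0 ∧ 0 ≤ P.1 ∧ r0 ≤ kr M a P ∧ P.1 + |kx M a P| ≤ c * mf M a (kr M a P)}) ▸ c2
  · exact ⟨hP.1.1, hP.2.1, sub_nonneg.1 hP.2.2.1, sub_nonneg.1 hP.2.2.2⟩
  obtain ⟨k0, k1, k2, k3⟩ := hP
  have u1 := (hu u0 le_rfl).2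
  have x0 := abs_nonneg (kx M a P)
  have x1 : |kx M a P| ≤ u0 := by
    by_contra! j
    obtain ⟨j1, j2⟩ := hu _ j.le
    have j3 := key P k1 k2 _ (sq_abs _).symm.le
    have j4 : (rp M a - rm M a + |kx M a P| ^ 2) ^ q ≤
        (rp M a - rm M a + 1) ^ q * (|kx M a P| ^ (-(1 - 2 * q)) * |kx M a P|) := by
      rw [← Real.rpow_add_one (by linarith), show -(1 - 2 * q) + 1 = (2 : ℕ) * q by push_cast; ring,
        Real.rpow_natCast_mul x0, ← Real.mul_rpow (by linarith) (by positivity)]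
      exact Real.rpow_le_rpow (by positivity) (by nlinarith [one_le_pow₀ (n := 2) j2]) q0
    nlinarith [mul_le_mul_of_nonneg_left j4 (abs_nonneg c), mul_lt_mul_of_pos_right j1
      (show 0 < |kx M a P| by linarith)]
  have x2 := key P k1 k2 (u0 ^ 2) (sq_le_sq' (abs_le.1 x1).1 (abs_le.1 x1).2)
  have x3 : 0 ≤ |c| * (rp M a - rm M a + u0 ^ 2) ^ q := by
    have : 0 ≤ rp M a - rm M a + u0 ^ 2 := by nlinarith
    positivity
  exact ⟨⟨k0, by rw [abs_of_nonneg k1]; linarith, by linarith⟩, k1, sub_nonneg.2 k2, sub_nonneg.2 k3⟩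

end

theorem low_of (hK : KAP) (hL : LIM) (hP : PCOL) (hA : PAC) : LOW := by
  intro M a r1 r0 r3 θ d D g Xf ρ J ha hM h1 h0 _ hl hD hi hb he hs
  choose Y hY he using he
  have r01 := hs.lt.1
  have kc := fun P => kr_cont (P := P) hK ha hM
  have op : ∀ r, IsOpen {P | xs P ≠ 0 ∧ r < kr M a P} := fun r => isOpen_iff_mem_nhds.2 fun P hP =>
    (xs_cont.continuousAt.eventually_ne hP.1).and (continuousAt_const.eventually_lt (kc P hP.1) hP.2)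
  have tb : ∀ P ∈ Bx M a r1 θ, Tm g Xf (fun p => p.1) P := fun P hP =>
    ⟨contDiffAt_fst, by rw [fderiv_fst]; exact (hb P hP).1, by rw [fderiv_fst]; exact (hb P hP).2⟩
  have s0 : ∀ y ≠ 0, ∀ r < rp M a, xs (pt 0 y) ≠ 0 ∧ r < kr M a (pt 0 y) := fun y hy r hr =>
    ⟨by rwa [xs_pt], by
      show r < rp M a + kx M a (pt 0 y) ^ 2 - 0 ^ 2
      nlinarith⟩
  have r1p : r1 < rp M a := by
    by_contra! k
    obtain ⟨y, hy⟩ := exists_ne (0 : X)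
    have m := (hs.mem y hy).1
    have z := (hs.zero _ m).2 ⟨y, hy, rfl⟩
    exact (hs.neg _ m.1 (by linarith [m.2.2, hs.lt.2])).ne z
  have s1 : ∀ y ≠ 0, pt 0 y ∈ D0 M a r1 := fun y hy =>
    ⟨(s0 y hy _ r1p).1, le_rfl, (s0 y hy _ r1p).2⟩
  have s2 : ∀ y ≠ 0, Tm g Xf (fun p => p.1) (pt 0 y) := fun y hy => tb _ ⟨s1 y hy, .inl rfl⟩
  obtain ⟨O, O1, O2, O3, O4, O5⟩ := hP g _ Xf (hl.mono (hl.isOpen.inter (op (max r1 r3)))
    inter_subset_left) fun y hy => ⟨⟨hD (s1 y hy), s0 y hy _ (max_lt r1p hs.lt.2)⟩, s2 y hy⟩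
  obtain ⟨D', hD'⟩ : ∃ D', D' = O ∪ {P | xs P ≠ 0 ∧ r1 < kr M a P} ∩ {P | 0 < P.1} := ⟨_, rfl⟩
  have d1 : ∀ P ∈ D', xs P ≠ 0 ∧ r1 < kr M a P := fun P hP => by
    rcases hD' ▸ hP with k | k
    exacts [⟨(O1 k).2.1, (le_max_left _ _).trans_lt (O1 k).2.2⟩, k.1]
  have d2 : ∀ P ∈ D', P.1 ≤ 0 → P ∈ O := fun P hP k => (hD' ▸ hP).resolve_right fun j => k.not_gt j.2
  have d3 : ∀ P ∈ D', 0 ≤ P.1 → P ∈ D0 M a r1 := fun P hP k => ⟨(d1 P hP).1, k, (d1 P hP).2⟩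
  have d4 : D0 M a r1 ⊆ D' := fun P hP => by
    rw [hD']
    rcases hP.2.1.eq_or_lt with k | k
    · exact .inl (by rw [← pt_xs P, ← k]; exact O3 _ hP.1)
    · exact .inr ⟨⟨hP.1, hP.2.2⟩, k⟩
  have d5 : D' ⊆ D := fun P hP => by
    rcases le_total P.1 0 with k | k
    exacts [(O1 (d2 P hP k)).1, hD (d3 P hP k)]
  have d6 : ∀ P ∈ D', P.1 ≤ 0 → ρ P < 0 := fun P hP k =>
    hs.neg P (d1 P hP).1 ((le_max_right _ _).trans_lt (O1 (d2 P hP k)).2.2)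
  have dO : O ⊆ D' := hD' ▸ subset_union_left
  have hl' : Lor g D' Xf :=
    hl.mono (hD' ▸ O2.union ((op r1).inter (isOpen_lt continuous_const continuous_fst))) d5
  have d7 : ∀ P ∈ {p ∈ D' | ρ p < 0 ∧ 0 ≤ p.1}, P ∈ D0 M a r1 ∧ r0 ≤ kr M a P := fun P hP =>
    ⟨d3 P hP.1 hP.2.2, not_lt.1 fun k => hP.2.1.not_gt (hs.pos P (d3 P hP.1 hP.2.2) k)⟩
  let vs := fun σ P => nv M a σ P / mf M a (kr M a P)
  have en : ∀ σ, ∀ P ∈ D0 M a r1, 3 / 2 * θ ≤ vs σ P → θ * mf M a (kr M a P) ≤ nv M a σ P :=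
    fun σ P hP k => by
      have m := mf_pos (h1.trans hP.2.2)
      nlinarith [(le_div_iff₀ m).1 k, mul_pos h0 m]
  have er : ∀ σ, ∀ P ∈ {p ∈ D' | ρ p < 0 ∧ 0 ≤ p.1}, 3 / 2 * θ ≤ vs σ P →
      ci M a σ P ∈ Er M a r1 r0 θ ∧ ch M a σ (ci M a σ P) = P := fun σ P hP k =>
    have j := mem_En hK ha hM h1 h0 (d7 P hP).1 (en σ P (d7 P hP).1 k)
    ⟨⟨j.1, j.2.2.1 ▸ (d7 P hP).2⟩, j.2.1⟩
  have im : ∀ σ, ∀ K ⊆ Er M a r1 r0 θ, IsCompact K → ch M a σ '' K ⊆ D' ∧ IsCompact (ch M a σ '' K) :=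
    fun σ K k1 k2 => ⟨by
      rintro _ ⟨p, hp, rfl⟩
      exact d4 (mem_D0 hK ha hM h1 (k1 hp).1), k2.image_of_continuousOn fun p hp =>
        (ch_spec hK ha hM σ (h1.trans (k1 hp).1.1)).1.continuousAt.continuousWithinAt⟩
  have fs : ∀ σ b (z : ℝ → R4), (∀ s ∈ Ioo 0 b, z s ∈ {p ∈ D' | ρ p < 0 ∧ 0 ≤ p.1} ∧
      DifferentiableAt ℝ z s ∧ Ft g Xf (z s) (deriv z s)) → ∀ s ∈ Ioo 0 b, ∀ t ∈ Ioo 0 b, s ≤ t →
      3 / 2 * θ ≤ vs σ (z s) → 3 / 2 * θ ≤ vs σ (z t) := by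
    intro σ b z hz s hs' t ht
    have cn : ∀ P ∈ D0 M a r1, ContinuousAt (nv M a σ) P := fun P hP =>
      continuousAt_fst.add ((kx_cont hK ha hM hP.1).const_mul _)
    refine fut_set (F := fun s => vs σ (z s)) (fun s k => ?_) (fun s k j => ?_) hs' ht
    · have m := (d7 _ (hz s k).1).1
      exact (((cn _ m).div ((mf_cont hM).continuousAt.comp (kc _ m.1))
        (mf_pos (h1.trans m.2.2)).ne').comp (hz s k).2.1.continuousAt).continuousWithinAt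
    have m := (d7 _ (hz s k).1).1
    obtain ⟨e1, e2, e3, e4⟩ := mem_En hK ha hM h1 h0 m (en σ _ m j.ge)
    have m0 := mf_pos (h1.trans m.2.2)
    have e5 : Real.exp (ka M a * (ci M a σ (z s)).1) = 3 / 2 * θ := by
      rw [← j]; simp only [vs, e4]; field_simp
    have t1 := tm_ch hK ha hM (h1.trans e1.1) (hY σ _ e1) ((he σ).time _ e1 (by linarith))
    rw [e2] at t1
    refine ⟨_, ?_, ((t1.der (hz s k).2.1).const_mul (ka M a)).exp.congr_of_eventuallyEq ?_⟩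
    · exact mul_pos (Real.exp_pos _) (mul_pos (ka_pos hM)
        (t1.pos hl.met (hD m) (hl.tl _ (hD m)) (hz s k).2.2))
    have c1 := (hz s k).2.1.continuousAt
    filter_upwards [Ioo_mem_nhds k.1 k.2, continuousAt_const.eventually_lt ((cn _ m).comp c1)
      (show 0 < nv M a σ (z s) by rw [e4]; positivity)] with u u1 u2
    have n := (d7 _ (hz u u1).1).1
    obtain ⟨-, b2, b3⟩ := ci_spec hK ha hM n.1 (h1.trans n.2.2) u2
    have a6 := (ch_spec hK ha hM σ (b3 ▸ h1.trans n.2.2 : rm M a < rd (ci M a σ (z u)))).2.2.2.2.2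
    rw [b2, b3] at a6
    simp only [vs, a6, Function.comp]
    rw [mul_div_cancel_left₀ _ (mf_pos (h1.trans n.2.2)).ne']
  have kb := box_cpt hK ha hM (h1.trans r01) (3 / 2 * θ)
  generalize hB : {P | xs P ≠ 0 ∧ 0 ≤ P.1 ∧ r0 ≤ kr M a P ∧
    P.1 + |kx M a P| ≤ 3 / 2 * θ * mf M a (kr M a P)} = Kb at kb
  have k1 : Kb ⊆ Bx M a r1 θ := fun P hP => by
    obtain ⟨a1, a2, a3, a4⟩ := hB ▸ hP
    exact ⟨⟨a1, a2, r01.trans_le a3⟩, .inr (by
      nlinarith [mul_pos h0 (mf_pos ((h1.trans r01).trans_le a3))])⟩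
  have k2 : ∀ P ∈ {p ∈ D' | ρ p < 0 ∧ 0 ≤ p.1}, (∀ σ, vs σ P < 3 / 2 * θ) → P ∈ Kb := fun P hP k => by
    obtain ⟨m, m'⟩ := d7 P hP
    have m0 := mf_pos (h1.trans m.2.2)
    have a1 := (div_lt_iff₀ m0).1 (k true)
    have a2 := (div_lt_iff₀ m0).1 (k false)
    simp only [nv, cond] at a1 a2
    rw [← hB]
    refine ⟨m.1, m.2.1, m', ?_⟩
    rcases abs_choice (kx M a P) with j | j <;> linarith
  refine ⟨D', d5, ⟨hl', hs.cont.mono d1, hs.sm, hs.emb,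
    fun y hy => ⟨d4 (hs.mem y hy).1, (hs.mem y hy).2⟩, fun P hP => ?_⟩, hi,
    fun P hP => ⟨(d1 P hP).1, d6 P hP⟩, fun y hy => ⟨d4 (s1 y hy), s2 y hy⟩, ?_, fun z hz => ?_,
    fun z hz => ?_, fun L z A I hz => ?_⟩
  · rcases lt_or_ge P.1 0 with k | k
    · refine iff_of_false (d6 P hP k.le).ne ?_
      rintro ⟨y, hy, rfl⟩
      exact k.not_ge (hs.mem y hy).1.2.1
    · exact hs.zero P (d3 P hP k)
  · obtain ⟨y0, hy0⟩ := exists_ne (0 : X)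
    have m : ∀ y ≠ 0, pt 0 y ∈ {p ∈ D0 M a r1 | ρ p < 0} := fun y hy =>
      ⟨s1 y hy, d6 _ (d4 (s1 y hy)) le_rfl⟩
    refine isPreconnected_of_forall (pt 0 y0) fun P hP => ?_
    rcases le_total P.1 0 with k | k
    · have o := O4 P (d2 P hP.1 k)
      refine ⟨{p ∈ D0 M a r1 | ρ p < 0} ∪ (fun c => (c * P.1, P.2)) '' Icc (0 : ℝ) 1, ?_,
        .inl (m y0 hy0), .inr ⟨1, ⟨zero_le_one, le_rfl⟩, by simp⟩, hs.conn.union (pt 0 (xs P))
          (m _ o.1) ⟨0, ⟨le_rfl, zero_le_one⟩, Prod.ext (zero_mul _) rfl⟩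
          (isPreconnected_Icc.image _ (by fun_prop))⟩
      rintro _ (j | ⟨c, j, rfl⟩)
      · exact ⟨d4 j.1, j.2⟩
      · exact ⟨dO (o.2 c j), d6 _ (dO (o.2 c j)) (mul_nonpos_of_nonneg_of_nonpos j.1 k)⟩
    · exact ⟨_, fun p j => ⟨d4 j.1, j.2⟩, m y0 hy0, ⟨d3 P hP.1 k, hP.2⟩, hs.conn⟩
  · have hz' : Fc g Xf D' z := fun t ht => ⟨(hz t ht).1.1, (hz t ht).2⟩
    by_cases c : ∃ σ, ∀ s ∈ Ioo (0 : ℝ) 1, 3 / 2 * θ ≤ vs σ (z s)
    · obtain ⟨σ, c⟩ := c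
      obtain ⟨τ, t1, t2⟩ := (he σ).lid
      have t3 : ∀ p ∈ Er M a r1 r0 θ, Tm g Xf (τ ∘ ci M a σ) (ch M a σ p) := fun p hp =>
        tm_ch hK ha hM (h1.trans hp.1.1) (hY σ _ hp.1) (t1 p hp)
      have mo := P354P.mono_of_der (f := fun s => (τ ∘ ci M a σ) (z s)) (convex_Ioo 0 1) fun s k => by
        obtain ⟨e1, e2⟩ := er σ _ (hz s k).1 (c s k)
        have t4 := e2 ▸ t3 _ e1
        exact ⟨_, t4.pos hl'.met (hz' s k).1 (hl'.tl _ (hz' s k).1) (hz s k).2.2, t4.der (hz s k).2.1⟩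
      obtain ⟨i1, i2⟩ := im σ _ (sep_subset _ _) (t2 (τ (ci M a σ (z (1 / 2)))))
      refine ((hL g D' Xf _ _ z hl' i2 i1 (by
        rintro _ ⟨p, hp, rfl⟩
        exact t3 p hp.1) hz').2 ?_).imp fun x k => ⟨i1 k.1, k.2⟩
      filter_upwards [Ioo_mem_nhdsGT (show (0 : ℝ) < 1 / 2 by norm_num)] with s k
      have k' : s ∈ Ioo (0 : ℝ) 1 := ⟨k.1, by linarith [k.2]⟩
      obtain ⟨e1, e2⟩ := er σ _ (hz s k').1 (c s k')
      exact ⟨_, ⟨e1, (mo k' (by norm_num) k.2).le⟩, e2⟩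
    push Not at c
    choose u u1 u2 using c
    refine ((hL g D' Xf _ _ z hl' kb (fun P hP => d4 (k1 hP).1) (fun P hP => tb P (k1 hP)) hz').2
      ?_).imp fun x k => ⟨d4 (k1 k.1).1, k.2⟩
    filter_upwards [Ioo_mem_nhdsGT (u1 true).1, Ioo_mem_nhdsGT (u1 false).1] with s j1 j2
    have k' : s ∈ Ioo (0 : ℝ) 1 := ⟨j1.1, j1.2.trans (u1 true).2⟩
    refine k2 _ (hz s k').1 fun σ => not_le.1 fun j => (u2 σ).not_ge
      (fs σ 1 z hz s k' _ (u1 σ) ?_ j)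
    cases σ
    exacts [j2.2.le, j1.2.le]
  · exact (O5 z fun t ht => ⟨⟨d2 _ (hz t ht).1.1 (hz t ht).1.2.le, (hz t ht).1.2⟩, (hz t ht).2⟩).imp
      fun x k => ⟨dO k.1, k.2⟩
  by_cases c : ∃ σ, ∃ s ∈ Ioo 0 L, 3 / 2 * θ ≤ vs σ (z s)
  · obtain ⟨σ, s0, j0, c⟩ := c
    have m : ∀ s ∈ Ioo 0 (L - s0), s + s0 ∈ Ioo 0 L := fun s k =>
      ⟨by linarith [k.1, j0.1], by linarith [k.2]⟩
    have e := fun s k => er σ _ (hz.mem _ (m s k)).1 (fs σ L z (fun s k => ⟨(hz.mem s k).1,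
      (hz.mem s k).2.1.differentiableAt (by simp), (hz.mem s k).2.2.1⟩) s0 j0 _ (m s k)
        (by linarith [k.1]) c)
    have h2 := hz.shift j0
    obtain ⟨K, a1, a2, a3⟩ := (he σ).lya _ _ _ _ (hA _ _ _ g D (Y σ) Xf (Er M a r1 r0 θ) _ _
      (fun s => ci M a σ (z (s + s0))) _ _ (ch_pull hK ha hM σ hl.isOpen hl.met)
      (fun p hp => ⟨h1.trans hp.1.1, hD (mem_D0 hK ha hM h1 hp.1)⟩) (fun p hp => hY σ p hp.1)
      (fun s k => ⟨(e s k).1, ContDiffAt.comp s (g := ci M a σ) (by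
        have := (ci_ch hK ha hM σ (h1.trans (e s k).1.1.1)).1
        rwa [(e s k).2] at this) (h2.mem s k).2.1⟩) (h2.congr fun s k => (e s k).2))
    refine ⟨_, (im σ K a1 a2).1, (im σ K a1 a2).2, Tendsto.frequently (f := fun s => s + s0)
      (l₁ := 𝓝[<] (L - s0)) (tendsto_nhdsWithin_iff.2 ⟨tendsto_nhdsWithin_of_tendsto_nhds ?_,
        eventually_nhdsWithin_of_forall fun s (k : s < L - s0) =>
          (lt_sub_iff_add_lt.1 k : s + s0 < L)⟩) ?_⟩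
    · simpa using (continuous_add_const s0).tendsto (L - s0)
    · exact (a3.and_eventually (Ioo_mem_nhdsLT h2.pos)).mono fun s k => ⟨_, k.1, (e s k.2).2⟩
  push Not at c
  exact ⟨Kb, fun P hP => d4 (k1 hP).1, kb, Eventually.frequently (mem_of_superset
    (Ioo_mem_nhdsLT hz.pos) fun s k => k2 _ (hz.mem s k).1 fun σ => c σ s k)⟩

end Vale.Agent.P354XE
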