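import Vale.Agent.P354XE.Low
import Vale.Agent.P354RC.Pull

/-!
GT and CYL from the pieces.
-/

open scoped ContDiff
open Set Filter Topology

noncomputable section

namespace Vale.Agent.P354XE

open Vale.Agent.P354n (R4)
open Vale.Agent.P354I (X Dat rm rp)

variable {M a r1 θ R s δ ε c c' : ℝ} {N N' : ℕ} {g : Tw} {Xf Y : R4 → R4} {p : R4} {q q' : Par}
  {β : Fin 3 → R4 → ℝ} {f f' : R4 → ℝ}

lemma Bd.le (h : Bd N g p c) (k : N' ≤ N) : Bd N' g p c := fun j hj => h j (hj.trans k)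

lemma Wb.le (h : Wb M a N f p c c') (k : N' ≤ N) : Wb M a N' f p c c' := fun α j => h α (j.trans k)

lemma IsEnd.le (h : IsEnd M a r1 θ R s δ ε N g Y q q' β) (k : N' ≤ N) :
    IsEnd M a r1 θ R s δ ε N' g Y q q' β :=
  ⟨h.par, fun p a b => (h.near p a b).imp id fun j => ⟨j.1.le k, j.2.le k⟩,
    fun p a b => (h.conv p a b).le k, fun p a b => (h.far p a b).imp id fun j =>
      ⟨j.gauge, j.smooth, fun i => (j.la i).le k, fun i => ⟨(j.shift i).1.le k, (j.shift i).2.le k⟩,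
        j.tt.le k, fun i n => (j.tt' i n).le k, fun i => (j.ta i).le k, fun i n => (j.aa i n).le k⟩⟩

lemma Tm.congr (h : Tm g Xf f p) (e : f' =ᶠ[𝓝 p] fun x => c + f x) : Tm g Xf f' p := by
  have k : fderiv ℝ f' p = fderiv ℝ f p := e.fderiv_eq.trans (fderiv_const_add c)
  exact ⟨(contDiffAt_const.add h.1).congr_of_eventuallyEq e, k ▸ h.2⟩

theorem endok (hK : KAP) (hE : END) {r0 : ℝ} (ha : a ≠ 0) (hM : |a| < M) (hs : 1 < s) (hδ : 0 < δ)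
    (h1 : rm M a < r1) (h2 : r1 < r0) (h3 : r0 < rp M a) (h0 : 0 < θ) : ∃ R0, ∀ R ≥ R0, ∃ ε > 0,
      ∀ N ≥ 2, ∀ d D g Xf, IsExt M a r1 θ R s δ ε N d D g Xf → ∀ σ, ∃ Y,
        (∀ p ∈ En M a r1 θ, fderiv ℝ (ch M a σ) p (Y p) = Xf (ch M a σ p)) ∧
          EndOK M a r1 r0 θ (pb (ch M a σ) g) Y := by
  obtain ⟨R0, H⟩ := hE M a s δ r1 r0 θ ha hM hs hδ h1 h2 h3 h0
  refine ⟨R0, fun R hR => (H R hR).imp fun ε k => ⟨k.1, fun N hN d D g Xf h σ => ?_⟩⟩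
  obtain ⟨Y, q, q', β, e1, e2⟩ := h.ends σ
  have P := ch_pull hK ha hM σ h.lor.isOpen h.lor.met
  have m : ∀ p ∈ En M a r1 θ, ch M a σ p ∈ D := fun p hp => h.sub (mem_D0 hK ha hM h1 hp)
  refine ⟨Y, e1, k.2 _ _ Y q q' β P.open' (P354RC.k2.1 _ _ _ _ _ P)
    (fun p hp => ⟨h1.trans hp.1, m p hp⟩) (fun p hp => ⟨?_, ?_⟩) (e2.le hN)⟩
  · rw [pb, e1 p hp]
    exact h.lor.tl _ (m p hp)
  · obtain ⟨L, l1, l2, l3⟩ := h.lor.sig _ (m p hp)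
    exact ⟨fun v => L (fderiv ℝ (ch M a σ) p v), ⟨fun v w => by rw [map_add, l1.map_add],
      fun c v => by rw [map_smul, l1.map_smul]⟩, l2.comp (P.inj p ⟨h1.trans hp.1, m p hp⟩),
      fun v w => l3 _ _⟩

theorem gt_of (hK : KAP) (hE : END) (hL : LOW) (hG : GLU) : GT := by
  intro M a s δ r1 r0 θ ha hM hs hδ h1 h2 h3 h0
  obtain ⟨R0, H⟩ := endok hK hE ha hM hs hδ h1 h2 h3 h0
  refine ⟨R0, fun R hR => (H R hR).imp fun ε k =>
    ⟨k.1, fun N hN d D g Xf hd h r3 ρ J d' j1 j2 j3 j4 => ?_⟩⟩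
  obtain ⟨D', -, l⟩ := hL M a r1 r0 r3 θ d D g Xf ρ J ha hM h1 h0 hd h.lor h.sub h.ind h.box
    (k.2 N hN d D g Xf h) j1
  exact hG d D' g Xf ρ J d' l j2 j3 j4

/-- Sets which are star shaped along the lines of T are connected. -/
lemma conn_of_vert {S : Set R4} (h0 : ∀ y ≠ 0, pt 0 y ∈ S)
    (h : ∀ p ∈ S, xs p ≠ 0 ∧ ∀ c ∈ Icc (0 : ℝ) 1, (c * p.1, p.2) ∈ S) : IsPreconnected S := by
  obtain ⟨y0, hy0⟩ := exists_ne (0 : X)
  have c0 : IsPreconnected (pt 0 '' {0}ᶜ) :=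
    (isConnected_compl_singleton_of_one_lt_rank (by
      rw [← Module.finrank_eq_rank]; simp) 0).isPreconnected.image _ (by unfold pt; fun_prop)
  refine isPreconnected_of_forall (pt 0 y0) fun P hP => ⟨pt 0 '' {0}ᶜ ∪
    (fun c => (c * P.1, P.2)) '' Icc (0 : ℝ) 1, ?_, .inl ⟨y0, hy0, rfl⟩,
    .inr ⟨1, ⟨zero_le_one, le_rfl⟩, by simp⟩, c0.union (pt 0 (xs P)) ⟨_, (h P hP).1, rfl⟩
      ⟨0, ⟨le_rfl, zero_le_one⟩, Prod.ext (zero_mul _) rfl⟩ (isPreconnected_Icc.image _ (by fun_prop))⟩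
  rintro _ (⟨y, j, rfl⟩ | ⟨c, j, rfl⟩)
  exacts [h0 y j, (h P hP).2 c j]

theorem cyl_of (hK : KAP) (hE : END) : CYL := by
  intro M a s δ r1 r0 θ ha hM hs hδ h1 h2 h3 h0 hθ
  obtain ⟨R0, H⟩ := endok hK hE ha hM hs hδ h1 h2 h3 h0
  refine ⟨R0, fun R hR => (H R hR).imp fun ε k => ⟨k.1, fun N hN d D g Xf h B ψ ψ' hψ => ?_⟩⟩
  obtain ⟨c1, c2, c3⟩ := (hK M a ha hM).2.2.2.2 r0 ⟨h1.trans h2, h3⟩
  have m := fun y hy => (c3 _).2 ⟨ψ y, hψ.l.ne y hy, rfl⟩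
  refine ⟨⟨h2, h3⟩, fun p hp => (continuousAt_const.sub (kr_cont hK ha hM hp.1)).continuousWithinAt,
    c1.comp hψ.l.sm hψ.l.ne, ?_, fun y hy => ⟨⟨(m y hy).1, (m y hy).2.1.le, h2.trans_eq (m y hy).2.2.symm⟩, ?_⟩,
    fun p hp => ⟨fun j => ?_, ?_⟩, fun p _ j => sub_neg.2 j, fun p _ j => sub_pos.2 j,
    conn_of_vert (fun y hy => ?_) fun p hp => ⟨hp.1.1, fun c j => ?_⟩⟩
  · have j := c2.comp (Function.LeftInverse.isEmbedding
      (f := fun y : ({0}ᶜ : Set X) => (⟨ψ' y, hψ.r.ne y y.2⟩ : ({0}ᶜ : Set X)))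
      (g := fun y : ({0}ᶜ : Set X) => (⟨ψ y, hψ.l.ne y y.2⟩ : ({0}ᶜ : Set X)))
      (fun y => Subtype.ext (hψ.inv y y.2).2) (hψ.r.sm.continuousOn.domRestrict.subtype_mk _)
      (hψ.l.sm.continuousOn.domRestrict.subtype_mk _))
    generalize cyl M a r0 = F at j ⊢
    exact j
  · obtain ⟨a1, a2, a3⟩ := m y hy
    rw [Function.comp]
    generalize cyl M a r0 (ψ y) = P at a1 a2 a3 ⊢
    obtain ⟨σ, e⟩ : ∃ σ, nv M a σ P = P.1 + |kx M a P| := by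
      rcases abs_choice (kx M a P) with j | j
      exacts [⟨true, by simp [nv, j]⟩, ⟨false, by simp [nv, j]⟩]
    have n : θ * mf M a (kr M a P) ≤ nv M a σ P := by
      rw [a3, e]
      refine hθ.trans (Real.sqrt_le_iff.2 ⟨by positivity, ?_⟩)
      rw [kr] at a3
      nlinarith [mul_nonneg a2.le (abs_nonneg (kx M a P)), sq_abs (kx M a P), sq_nonneg (kx M a P)]
    have r0' : rm M a < kr M a P := (h1.trans h2).trans_eq a3.symm
    obtain ⟨Y, y1, y2⟩ := k.2 N hN d D g Xf h σ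
    obtain ⟨e1, e2, e3, -⟩ := mem_En hK ha hM h1 h0 ⟨a1, a2.le, h2.trans_eq a3.symm⟩ n
    have t1 := tm_ch hK ha hM (h1.trans e1.1) (y1 _ e1) (y2.rad _ e1 (e3.trans a3))
    rw [e2] at t1
    refine t1.congr (c := r0) ?_
    filter_upwards [xs_cont.continuousAt.eventually_ne a1, continuousAt_const.eventually_lt
      (kr_cont hK ha hM a1) r0', continuousAt_const.eventually_lt (continuousAt_fst.add
        ((kx_cont hK ha hM a1).const_mul _)) ((mul_pos h0 (mf_pos r0')).trans_le n)] with x b1 b2 b3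
    rw [Function.comp, (ci_spec hK ha hM b1 b2 b3).2.2, sub_eq_add_neg]
  · have e := (sub_eq_zero.1 j).symm
    obtain ⟨y, hy, rfl⟩ := (c3 p).1 ⟨hp.1, hp.2.1.lt_of_ne fun i => by
      rw [kr, ← i] at e
      nlinarith, e⟩
    exact ⟨ψ' y, hψ.r.ne y hy, congrArg _ (hψ.inv y hy).1.symm⟩
  · rintro ⟨y, hy, rfl⟩
    exact sub_eq_zero.2 (m y hy).2.2.symm
  · have e : r0 < kr M a (pt 0 y) := by
      show r0 < rp M a + kx M a (pt 0 y) ^ 2 - 0 ^ 2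
      nlinarith
    exact ⟨⟨by rwa [xs_pt], le_rfl, h2.trans e⟩, sub_neg.2 e⟩
  · have e : kr M a p ≤ kr M a (c * p.1, p.2) := by
      show _ - p.1 ^ 2 ≤ rp M a + kx M a p ^ 2 - (c * p.1) ^ 2
      nlinarith [mul_nonneg (sq_nonneg p.1) (sub_nonneg.2 (pow_le_one₀ (n := 2) j.1 j.2))]
    exact ⟨⟨hp.1.1, mul_nonneg j.1 hp.1.2.1, hp.1.2.2.trans_le e⟩, by linarith [hp.2]⟩

end Vale.Agent.P354XE
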