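import Vale.Agent.P354XE.Main
import Vale.Agent.P354XY.Main
import Vale.Agent.P354YC.Gu
import Vale.Agent.P354YC.UnqP
import Vale.Agent.P354UR.Roll

/-!
GT from UNQ, and CYL.
-/

namespace Vale.Agent.P354XE

theorem gt_unq (h : P354YC.UNQ) : GT := gt_main (P354YC.gu_of P354UR.roll h) P354XY.end_ok

theorem gt_ok : GT := gt_unq P354YC.unq

theorem cyl_ok : CYL := cyl_main P354XY.end_ok

end Vale.Agent.P354XE
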