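import Vale.Agent.P354XE.Iface
import Vale.Agent.P354GT.Main

/-!
GGP: the future part of the development.
-/

open scoped ContDiff
open Set Filter Topology

noncomputable section

namespace Vale.Agent.P354XE

open Vale.Agent.P354n (R4)
open Vale.Agent.P354C Vale.Agent.P354C.Ix
open Vale.Agent.P354P
open Vale.Agent.P354GT
open Vale.Agent.P354I (Strip r2 IndAt)

theorem ggp : GGP := by
  rintro t d d' δ' U' ⟨a, b, U, a1, a2, hU, i0, i1⟩ G c H
  have t0 : 0 ≤ t := G.pos.le.trans c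
  simp only [lt_min_iff, max_lt_iff] at a1 a2
  have p0 := G.pos
  have F := fu_sf (t := t) G
  have i2 : IndAt (sf t U') t d' := fun σ z hz => by simpa only [sf, sub_self] using G.ind σ z hz
  have hU1 := mono hU (le_max_left a (t - δ')) le_rfl
  have sub : St (max a (t - δ')) b ⊆ {p | t - δ' < p.1 ∧ rr p < 4} := fun p hp =>
    ⟨(le_max_right _ _).trans_lt hp.1.1, hp.2⟩
  have hV : Strip (max a (t - δ')) b (sf t U') := ⟨fun σ => ((F σ).mono sub).1,
    fun σ p k k' => (F σ).2 p (sub ⟨k, k'⟩), fun σ p k k' => compat_sf G σ (sub ⟨k, k'⟩).1 k'⟩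
  have tm : t ∈ Ioo (max a (t - δ')) b := ⟨max_lt a1.2 (by linarith), a2.2⟩
  have ag := fun τ (k : τ ∈ Ioo (max a (t - δ')) b) σ z (hz : r2 z < 4) =>
    gu hU1 hV tm (ag_ind i1 i2) k σ hz
  have o : IsOpen {p : R4 | t - δ' < p.1 ∧ rr p < 4} :=
    (isOpen_lt continuous_const continuous_fst).and (isOpen_lt rr_smooth.continuous continuous_const)
  have w := fun σ => wr (t := t) o (F σ) (fu hU1 σ) (fu hV σ) (fun p hp => ⟨tm, hp.2⟩)
    fun p hp => ag t tm σ _ hp.2
  obtain ⟨V, hV'⟩ : ∃ V : Bool → R4 → Ix → ℝ,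
    V = fun σ p => if p.1 ≤ t then U σ p else Wr (U σ) (sf t U' σ) t p := ⟨_, rfl⟩
  have l : ∀ σ (p : R4), p.1 ≤ t → V σ p = U σ p := fun σ p k => by simp only [hV', if_pos k]
  have r : ∀ σ (p : R4), t < p.1 → V σ p = Wr (U σ) (sf t U' σ) t p := fun σ p k => by
    simp only [hV', if_neg k.not_ge]
  have cf : ∀ σ (p : R4), t - δ' < p.1 → rr p < 4 → cfu (V σ p) = cfu (sf t U' σ p) :=
    fun σ p k k' => by
      rcases le_or_gt p.1 t with j | j
      · have m : p.1 ∈ Ioo (max a (t - δ')) b := ⟨max_lt (by linarith [a1.1]) k, j.trans_lt a2.2⟩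
        rw [l σ p j]
        exact cfu_of_hf (hU1.full σ p m k').1.ne' (hU1.full σ p m k').2.1
          fun i j => (ag _ m σ p.2 k' i j).1
      · rw [r σ p j, (w σ).2 p ⟨k, k'⟩]
  have key : ∀ σ, ∀ p ∈ Dt (-a) 4, ∃ W D, IsOpen D ∧ p ∈ D ∧ Fu W D ∧ V σ =ᶠ[𝓝 p] W := by
    intro σ p hp
    have hp1 : a < p.1 := neg_neg a ▸ hp.1
    rcases lt_trichotomy p.1 t with j | j | j
    · exact ⟨_, _, isOpen_St a b, ⟨⟨hp1, j.trans a2.2⟩, hp.2⟩, fu hU σ,
        (continuous_fst.continuousAt.eventually_lt_const j).mono fun q k => l σ q k.le⟩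
    · obtain ⟨ρ, ρ1, ρ2⟩ := exists_between hp.2
      obtain ⟨T, T0, hT⟩ := step (N := |p.2.1| + 1) (fu hU1 σ) (fu hV σ) tm ρ2
        fun z hz _ => ag t tm σ z hz
      refine ⟨_, _, isOpen_St a b, ⟨⟨hp1, j ▸ a2.2⟩, hp.2⟩, fu hU σ, ?_⟩
      filter_upwards [ContinuousAt.eventually_lt (f := fun q : R4 => |q.1 - t|) (by fun_prop)
        continuousAt_const (show |p.1 - t| < T by simpa [j]), ContinuousAt.eventually_lt (f := fun q : R4 => |q.2.1|)
        (g := fun q : R4 => |p.2.1| + 1 - |q.1 - t|) (by fun_prop) (by fun_prop) (by simp [j]),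
        rr_smooth.continuous.continuousAt.eventually_lt_const ρ1] with q q1 q2 q3
      rcases le_or_gt q.1 t with k | k
      exacts [l σ q k, (r σ q k).trans (hT q q1 q2 q3).1.symm]
    · exact ⟨_, _, o, ⟨by linarith, hp.2⟩, (w σ).1,
        (continuous_fst.continuousAt.eventually_const_lt j).mono fun q k => r σ q k⟩
  have G' : Glob d (-a) V := by
    refine ⟨neg_pos.2 a1.1, fun σ i p hp => ?_, fun σ p hp => ?_,
      fun σ z hz => (l σ (0, z) t0).symm ▸ i0 σ z hz, fun σ p hp k v w => ?_⟩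
    · obtain ⟨W, D, k1, k2, k3, k4⟩ := key σ p hp
      exact (((k3.1 i).contDiffAt (k1.mem_nhds k2)).congr_of_eventuallyEq
        (k4.mono fun q k => congrFun k i)).contDiffWithinAt
    · obtain ⟨W, D, k1, k2, k3, k4⟩ := key σ p hp
      rw [show dfr (V σ) p = dfr W p from funext₂ fun k i => by
        rw [dfr, dfr, k4.self_of_nhds, EventuallyEq.fderiv_eq (k4.mono fun q k => congrFun k i)],
        k4.self_of_nhds]
      exact k3.2 p k2
    · rcases le_or_gt p.1 t with j | j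
      · rw [met, met, l σ p j, l (!σ) (flip p) j]
        exact hU.compat σ p ⟨neg_neg a ▸ hp.1, j.trans_lt a2.2⟩ hp.2 k v w
      · rw [met_cfu (cf σ p (by linarith) hp.2), met_cfu (cf (!σ) (flip p) (show _ < p.1 by linarith) (by
          rw [rr_flip, inv_lt_comm₀ (by linarith) four_pos]; linarith))]
        exact compat_sf G σ (by linarith) hp.2 k v w
  refine ⟨_, _, t, δ', _, G', G.isDN, c, fun σ i y hy => ?_, H⟩
  have k : uv.symm (y + (t, t, 0)) = ((uv.symm y).1 + t, (uv.symm y).2) := by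
    rw [map_add]
    exact Prod.ext (by show _ + (t + t) / 2 = _; ring) (Prod.ext (by show _ + (t - t) / 2 = _; ring)
      (add_zero _))
  have m := mem_Dm.1 hy
  rw [coef, k, cf σ ((uv.symm y).1 + t, (uv.symm y).2) (by linarith [m.1]) m.2, coef, sf,
    add_sub_cancel_right]

end Vale.Agent.P354XE
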