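import Vale.Agent.P354XE.Gt
import Vale.Agent.P354XE.Low
import Vale.Agent.P354XE.Ggp
import Vale.Agent.P354YR.Kap
import Vale.Agent.P354XJ.Col
import Vale.Agent.P354XA.Pac
import Vale.Agent.P354YG.Glu
import Vale.Agent.P354YC.Col

/-!
Block E12 from local geometric uniqueness and the causal structure of an end.
-/

namespace Vale.Agent.P354XE

theorem gt_main (hG : P354YC.GU) (hE : END) : GT :=
  gt_of P354YR.kap_ok hE (low_of P354YR.kap_ok P354XJ.lim_main P354XJ.pcol P354XA.pac)
    (P354YG.glu (P354YC.col hG))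

theorem cyl_main (hE : END) : CYL := cyl_of P354YR.kap_ok hE

end Vale.Agent.P354XE
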